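import Vale.Agent.P057.Roth.LocalChang

/-!
# Bohr sets in finite abelian groups

`bohr Γ ρ = {x : ∀ χ ∈ Γ, |χ x - 1| ≤ ρ}`: size and doubling bounds by covering the unit circle
with squares, plateau radii, almost periods, and the local Chang lemma for Bohr sets.
-/

namespace Vale.Agent.P057.Roth.Bohr

open Finset Real
open scoped symmDiff Pointwise

variable {G : Type*} [AddCommGroup G] [Fintype G]

/-- The Bohr set with frequencies `Γ` and radius `ρ`. -/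
noncomputable def bohr (Γ : Finset (AddChar G ℂ)) (ρ : ℝ) : Finset G :=
  letI := Classical.decPred fun x : G => ∀ χ ∈ Γ, ‖χ x - 1‖ ≤ ρ
  univ.filter fun x => ∀ χ ∈ Γ, ‖χ x - 1‖ ≤ ρ

variable {Γ Γ' : Finset (AddChar G ℂ)} {ρ σ : ℝ} {x y : G}

@[simp] lemma mem_bohr : x ∈ bohr Γ ρ ↔ ∀ χ ∈ Γ, ‖χ x - 1‖ ≤ ρ := by simp [bohr]

lemma zero_mem (h : 0 ≤ ρ) : (0 : G) ∈ bohr Γ ρ := by simp [h]

lemma bohr_nonempty (h : 0 ≤ ρ) : (bohr Γ ρ).Nonempty := ⟨0, zero_mem h⟩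

lemma card_pos (h : 0 ≤ ρ) : (0 : ℝ) < (bohr Γ ρ).card := by
  exact_mod_cast Finset.card_pos.2 (bohr_nonempty h)

lemma bohr_mono (h : ρ ≤ σ) : bohr Γ ρ ⊆ bohr Γ σ := fun _ hx =>
  mem_bohr.2 fun χ hχ => (mem_bohr.1 hx χ hχ).trans h

lemma bohr_anti (h : Γ ⊆ Γ') : bohr Γ' ρ ⊆ bohr Γ ρ := fun _ hx =>
  mem_bohr.2 fun χ hχ => mem_bohr.1 hx χ (h hχ)

lemma add_mem (hx : x ∈ bohr Γ ρ) (hy : y ∈ bohr Γ σ) : x + y ∈ bohr Γ (ρ + σ) := by
  refine mem_bohr.2 fun χ hχ => ?_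
  have h : χ (x + y) - 1 = χ x * (χ y - 1) + (χ x - 1) := by
    rw [AddChar.map_add_eq_mul]; ring
  rw [h]
  refine (norm_add_le _ _).trans ?_
  rw [norm_mul, AddChar.norm_apply, one_mul]
  linarith [mem_bohr.1 hx χ hχ, mem_bohr.1 hy χ hχ]

@[simp] lemma neg_mem_iff : -x ∈ bohr Γ ρ ↔ x ∈ bohr Γ ρ := by
  have h : ∀ χ : AddChar G ℂ, ‖χ (-x) - 1‖ = ‖χ x - 1‖ := fun χ => by
    rw [AddChar.map_neg_eq_conj, ← map_one (starRingEnd ℂ), ← map_sub, RCLike.norm_conj, map_one]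
  simp [h]

lemma sub_mem (hx : x ∈ bohr Γ ρ) (hy : y ∈ bohr Γ σ) : x - y ∈ bohr Γ (ρ + σ) := by
  simpa [sub_eq_add_neg] using add_mem hx (neg_mem_iff.2 hy)

lemma sum_mem (m : ℕ) (v : Fin m → G) (h : ∀ i, v i ∈ bohr Γ ρ) :
    ∑ i, v i ∈ bohr Γ (m * ρ) := by
  induction m with
  | zero => simp
  | succ m ih =>
      rw [Fin.sum_univ_succ]
      have h2 := add_mem (h 0) (ih (fun i => v i.succ) fun i => h i.succ)
      refine bohr_mono (le_of_eq ?_) h2
      push_cast; ring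

lemma bohr_two : bohr Γ 2 = univ := by
  refine eq_univ_iff_forall.2 fun x => mem_bohr.2 fun χ _ => ?_
  refine (norm_sub_le _ _).trans ?_
  rw [AddChar.norm_apply, norm_one]; norm_num

/-- Covering bound: `|B_R| ≤ (2⌈2R/ρ⌉ + 1)^{2|Γ|} |B_ρ|`. -/
theorem card_le_scale (Γ : Finset (AddChar G ℂ)) {R : ℝ} (hρ : 0 < ρ) :
    ((bohr Γ R).card : ℝ) ≤ ((2 * ⌈2 * R / ρ⌉₊ + 1 : ℕ) : ℝ) ^ (2 * Γ.card) *
      (bohr Γ ρ).card := by
  classical
  set q : ℕ := ⌈2 * R / ρ⌉₊ with hq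
  set S : Finset ℤ := Icc (-(q : ℤ)) q with hS
  set C := Fintype.piFinset fun _ : Γ => S ×ˢ S with hC
  let cell : G → (Γ → ℤ × ℤ) := fun x χ =>
    (⌊(χ.1 x - 1).re * 2 / ρ⌋, ⌊(χ.1 x - 1).im * 2 / ρ⌋)
  have hrange : ∀ u : ℝ, |u| ≤ R → ⌊u * 2 / ρ⌋ ∈ S := by
    intro u hu
    have h1 : |u * 2 / ρ| ≤ (q : ℝ) := by
      rw [abs_div, abs_mul, abs_of_pos hρ, abs_of_nonneg (by norm_num : (0:ℝ) ≤ 2)]
      refine le_trans ?_ (Nat.le_ceil _)
      rw [mul_comm]; gcongr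
    obtain ⟨ha, hb⟩ := abs_le.1 h1
    exact mem_Icc.2 ⟨Int.le_floor.2 (by push_cast; exact ha),
      Int.floor_le_iff.2 (by push_cast; linarith)⟩
  have hmaps : ∀ x ∈ bohr Γ R, cell x ∈ C := fun x hx => Fintype.mem_piFinset.2 fun χ =>
    mem_product.2 ⟨hrange _ ((Complex.abs_re_le_norm _).trans (mem_bohr.1 hx _ χ.2)),
      hrange _ ((Complex.abs_im_le_norm _).trans (mem_bohr.1 hx _ χ.2))⟩
  have hfib : ∀ c ∈ C, ((bohr Γ R).filter fun x => cell x = c).card ≤ (bohr Γ ρ).card := by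
    intro c _
    rcases ((bohr Γ R).filter fun x => cell x = c).eq_empty_or_nonempty with h | ⟨y, hy⟩
    · simp [h]
    refine card_le_card_of_injOn (fun x => x - y) (fun x hx => ?_)
      (fun a _ b _ h => sub_left_injective h)
    refine mem_bohr.2 fun χ hχ => ?_
    have he := congrFun ((mem_filter.1 hx).2.trans (mem_filter.1 hy).2.symm) ⟨χ, hχ⟩
    simp only [cell, Prod.mk.injEq] at he
    have hre := Int.abs_sub_lt_one_of_floor_eq_floor he.1
    have him := Int.abs_sub_lt_one_of_floor_eq_floor he.2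
    have hd : ∀ a b : ℝ, |a * 2 / ρ - b * 2 / ρ| < 1 → |a - b| < ρ / 2 := fun a b h => by
      rw [div_sub_div_same, ← sub_mul, abs_div, abs_mul, abs_of_pos hρ,
        abs_of_nonneg (by norm_num : (0:ℝ) ≤ 2), div_lt_one hρ] at h
      linarith
    have hsub : ‖χ (x - y) - 1‖ = ‖(χ x - 1) - (χ y - 1)‖ := by
      have hy1 : ‖χ y‖ = 1 := AddChar.norm_apply _ _
      have : (χ (x - y) - 1) * χ y = (χ x - 1) - (χ y - 1) := by
        rw [sub_mul, ← AddChar.map_add_eq_mul, sub_add_cancel]; ring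
      rw [← this, norm_mul, hy1, mul_one]
    rw [hsub]
    refine (Complex.norm_le_abs_re_add_abs_im _).trans ?_
    rw [Complex.sub_re (χ x - 1), Complex.sub_im (χ x - 1)]
    linarith [hd _ _ hre, hd _ _ him]
  have hcount : (bohr Γ R).card ≤ (bohr Γ ρ).card * C.card := by
    refine card_le_mul_card_image_of_maps_to hmaps _ fun c hc => ?_
    exact hfib c hc
  have hCc : C.card = (2 * q + 1) ^ (2 * Γ.card) := by
    rw [hC, Fintype.card_piFinset, prod_const, card_univ, Fintype.card_coe, card_product, hS,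
      Int.card_Icc, pow_mul, sq]
    congr 2 <;> omega
  calc ((bohr Γ R).card : ℝ) ≤ ((bohr Γ ρ).card * C.card : ℕ) := by exact_mod_cast hcount
    _ = _ := by rw [hCc]; push_cast; ring

lemma card_double (Γ : Finset (AddChar G ℂ)) (hρ : 0 < ρ) :
    ((bohr Γ (2 * ρ)).card : ℝ) ≤ 81 ^ Γ.card * (bohr Γ ρ).card := by
  refine (card_le_scale Γ hρ).trans (le_of_eq ?_)
  have : ⌈2 * (2 * ρ) / ρ⌉₊ = 4 := by
    rw [show 2 * (2 * ρ) / ρ = ((4:ℕ):ℝ) by push_cast; field_simp; ring, Nat.ceil_natCast]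
  rw [this, pow_mul]; norm_num

lemma card_univ_le (Γ : Finset (AddChar G ℂ)) (hρ : 0 < ρ) (hρ1 : ρ ≤ 1) :
    (Fintype.card G : ℝ) ≤ (11 / ρ) ^ (2 * Γ.card) * (bohr Γ ρ).card := by
  have h := card_le_scale (R := 2) Γ hρ
  rw [bohr_two, Finset.card_univ] at h
  refine h.trans (mul_le_mul_of_nonneg_right (pow_le_pow_left₀ (by positivity) ?_ _) (by positivity))
  push_cast
  have h1 : (⌈2 * 2 / ρ⌉₊ : ℝ) < 2 * 2 / ρ + 1 := Nat.ceil_lt_add_one (by positivity)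
  have h2 : 1 ≤ 1 / ρ := by rw [le_div_iff₀ hρ]; linarith
  have e : (11:ℝ) / ρ = 2 * (2 * 2 / ρ) + 3 * (1 / ρ) := by ring
  linarith

/-- Plateau radius: `|B_(r+s)| ≤ (1+ε)|B_(r-s)|` for some `r ∈ [ρ/2, ρ]`. -/
theorem exists_plateau (Γ : Finset (AddChar G ℂ)) (hρ : 0 < ρ) {ε : ℝ} (hε : 0 < ε)
    (hε1 : ε ≤ 1) :
    ∃ r s : ℝ, s = ρ * ε / (48 * (Γ.card + 1)) ∧ 0 < s ∧ ρ / 2 ≤ r - s ∧ r + s ≤ ρ ∧
      ((bohr Γ (r + s)).card : ℝ) ≤ (1 + ε) * (bohr Γ (r - s)).card := by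
  set n := ⌈2 / ε⌉₊ with hn
  set N := 4 * (Γ.card + 1) * n with hN
  have hn1 : 2 / ε ≤ n := Nat.le_ceil _
  have hn3 : (n : ℝ) ≤ 3 / ε := by
    have h1 : (n : ℝ) < 2 / ε + 1 := Nat.ceil_lt_add_one (by positivity)
    have : 1 ≤ 1 / ε := by rw [le_div_iff₀ hε]; linarith
    have e : 3 / ε = 2 / ε + 1 / ε := by ring
    linarith
  have hnpos : (0:ℝ) < n := lt_of_lt_of_le (by positivity) hn1
  have hNr : (N : ℝ) = 4 * ((Γ.card : ℝ) + 1) * n := by rw [hN]; push_cast; ring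
  have hNpos : (0:ℝ) < N := by rw [hNr]; positivity
  have h3 : (3:ℝ) ≤ (1 + ε) ^ n := by
    refine le_trans ?_ (one_add_mul_le_pow (by linarith) n)
    rw [div_le_iff₀ hε] at hn1
    linarith
  have h81 : (81:ℝ) ^ Γ.card < (1 + ε) ^ N := by
    have e : N = n * (4 * (Γ.card + 1)) := by rw [hN]; ring
    rw [e, pow_mul]
    refine lt_of_lt_of_le ?_ (pow_le_pow_left₀ (by norm_num) h3 _)
    rw [pow_mul]; norm_num
    exact pow_lt_pow_right₀ (by norm_num) (Nat.lt_succ_self _)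
  set s' := ρ / (4 * N) with hs'
  set f : ℕ → ℝ := fun i => ((bohr Γ (ρ / 2 + 2 * s' * i)).card : ℝ) with hf
  obtain ⟨i, hi, hgood⟩ : ∃ i < N, f (i + 1) ≤ (1 + ε) * f i := by
    by_contra! hcon
    have hgrow : ∀ i ≤ N, (1 + ε) ^ i * f 0 ≤ f i := by
      intro i
      induction i with
      | zero => simp
      | succ i ih =>
          intro hi
          rw [pow_succ', mul_assoc]
          exact (mul_le_mul_of_nonneg_left (ih (by omega)) (by linarith)).trans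
            (hcon i (by omega)).le
    have hfN : f N ≤ 81 ^ Γ.card * f 0 := by
      rw [hf]; simp only
      rw [show ρ / 2 + 2 * s' * N = 2 * (ρ / 2) by rw [hs']; field_simp; ring,
        show ρ / 2 + 2 * s' * ((0:ℕ):ℝ) = ρ / 2 by push_cast; ring]
      exact card_double Γ (by positivity)
    have hf0 : 0 < f 0 := card_pos (by simp; linarith)
    nlinarith [hgrow N le_rfl, mul_lt_mul_of_pos_right h81 hf0]
  set s := ρ * ε / (48 * ((Γ.card : ℝ) + 1)) with hs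
  have hss : s ≤ s' := by
    rw [hs, hs', hNr, div_le_div_iff₀ (by positivity) (by positivity)]
    rw [le_div_iff₀ hε] at hn3
    nlinarith [mul_le_mul_of_nonneg_left hn3
      (mul_nonneg hρ.le (show (0:ℝ) ≤ Γ.card + 1 by positivity))]
  have hspos : 0 < s := by positivity
  have hiN : (i : ℝ) + 1 ≤ N := by exact_mod_cast hi
  have hs'pos : 0 < s' := by positivity
  have hs'N : 2 * s' * N = ρ / 2 := by rw [hs']; field_simp; ring
  refine ⟨ρ / 2 + 2 * s' * i + s', s, rfl, hspos, ?_, ?_, ?_⟩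
  · have : 0 ≤ 2 * s' * i := by positivity
    linarith
  · nlinarith [mul_le_mul_of_nonneg_left hiN (show 0 ≤ 2 * s' by positivity)]
  · rw [hf] at hgood; simp only at hgood
    push_cast at hgood
    calc ((bohr Γ (ρ / 2 + 2 * s' * i + s' + s)).card : ℝ)
        ≤ (bohr Γ (ρ / 2 + 2 * s' * ((i : ℝ) + 1))).card := by
          exact Nat.cast_le.2 (card_le_card (bohr_mono (by linarith)))
      _ ≤ (1 + ε) * (bohr Γ (ρ / 2 + 2 * s' * i)).card := hgood
      _ ≤ _ := mul_le_mul_of_nonneg_left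
          (Nat.cast_le.2 (card_le_card (bohr_mono (by linarith)))) (by linarith)

/-- Translates by `B_s` move a plateau Bohr set by at most `2ε`. -/
theorem almost_period [DecidableEq G] {r s ε : ℝ} (hs : 0 ≤ s) (hε : 0 ≤ ε)
    (h : ((bohr Γ (r + s)).card : ℝ) ≤ (1 + ε) * (bohr Γ (r - s)).card) {t : G}
    (ht : t ∈ bohr Γ s) :
    ((((bohr Γ r).image (· + t)) ∆ bohr Γ r).card : ℝ) ≤ 2 * ε * (bohr Γ r).card := by
  set B := bohr Γ r
  set A := B.image (· + t) with hA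
  have hAc : A.card = B.card := card_image_of_injective _ (add_left_injective t)
  have hsub : A ∪ B ⊆ bohr Γ (r + s) := union_subset
    (image_subset_iff.2 fun b hb => add_mem hb ht) (bohr_mono (by linarith))
  have h1 : (A ∆ B).card + 2 * B.card = 2 * (A ∪ B).card := by
    have e1 : (A ∆ B).card + (A ∩ B).card = (A ∪ B).card := by
      rw [symmDiff_eq_sup_sdiff_inf, sup_eq_union, inf_eq_inter]
      exact card_sdiff_add_card_eq_card (inter_subset_left.trans subset_union_left)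
    have e2 := card_union_add_card_inter A B
    omega
  have h2 : ((A ∪ B).card : ℝ) ≤ (1 + ε) * B.card :=
    (le_trans (by exact_mod_cast card_le_card hsub) h).trans (mul_le_mul_of_nonneg_left
      (by exact_mod_cast card_le_card (bohr_mono (by linarith))) (by linarith))
  have h1' : ((A ∆ B).card : ℝ) + 2 * B.card = 2 * (A ∪ B).card := by exact_mod_cast h1
  linarith

/-- **Local Chang lemma for Bohr sets.**  If `X ⊆ x₀ + B_R(Γ)` fills an `exp (-ℓ)` part of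
`B_(R+s)(Γ)`, then on a Bohr set with `4/δ² (1 + ℓ)` more frequencies (no dependence on `|Γ|`)
and radius `s` times an inverse polynomial in `|Γ|` and that number, all characters in the
`δ`-spectrum of `X` are within `η` of `1`. -/
theorem chang_bohr (Γ : Finset (AddChar G ℂ)) (X : Finset G) (x₀ : G) {R s δ η ℓ : ℝ}
    (hR : 0 ≤ R) (hs : 0 < s) (hs1 : s ≤ 1) (hδ : 0 < δ) (hδ1 : δ ≤ 1) (hη : 0 < η) (hη1 : η ≤ 1)
    (hX : X.Nonempty) (hsub : ∀ x ∈ X, x - x₀ ∈ bohr Γ R)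
    (hℓ : ((bohr Γ (R + s)).card : ℝ) ≤ exp ℓ * X.card) :
    ∃ Λ : Finset (AddChar G ℂ), ∃ K σ : ℝ, K = 4 / δ ^ 2 * (1 + ℓ) ∧
      σ = s * η / (400 * ((Γ.card : ℝ) + 1) * (K + 2)) ∧ 0 ≤ K ∧ 0 < σ ∧ σ ≤ s ∧
      (Λ.card : ℝ) ≤ K ∧
      ∀ Γ' : Finset (AddChar G ℂ), Γ ⊆ Γ' → Λ ⊆ Γ' → ∀ t ∈ bohr Γ' σ,
        ∀ γ : AddChar G ℂ, δ * X.card ≤ ‖∑ x ∈ X, γ x‖ → ‖γ t - 1‖ ≤ η := by
  classical
  set d : ℝ := (Γ.card : ℝ) with hd
  set K := 4 / δ ^ 2 * (1 + ℓ) with hK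
  have hXpos : (0:ℝ) < X.card := by exact_mod_cast hX.card_pos
  have hXle : (X.card : ℝ) ≤ (bohr Γ (R + s)).card := by
    refine le_trans ?_ (Nat.cast_le.2 (card_le_card (bohr_mono (by linarith : R ≤ R + s))))
    exact_mod_cast card_le_card_of_injOn (fun x => x - x₀) hsub
      (fun a _ b _ h => sub_left_injective h)
  have hl0 : 0 ≤ ℓ := by
    by_contra hneg
    have : exp ℓ < 1 := exp_lt_one_iff.2 (lt_of_not_ge hneg)
    nlinarith
  have hd0 : 0 ≤ d := by positivity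
  have hK0 : 0 ≤ K := by positivity
  set m := ⌊K⌋₊ + 1 with hm
  have hmK : K < m := by rw [hm]; push_cast; exact Nat.lt_floor_add_one K
  have hmpos : (0:ℝ) < m := lt_of_le_of_lt hK0 hmK
  have hm2 : (m:ℝ) ≤ K + 2 := by
    rw [hm]; push_cast; linarith [Nat.floor_le hK0]
  obtain ⟨r, u, hu, hupos, hr1, hr2, hplat⟩ :=
    exists_plateau Γ (ρ := s / m) (div_pos hs hmpos) (ε := η / 8) (by positivity) (by linarith)
  have hrpos : 0 ≤ r := by
    have : 0 < s / m := div_pos hs hmpos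
    linarith
  set B' := bohr Γ r with hB'
  set B1 := (bohr Γ (R + s)).image (· + x₀) with hB1
  have hcov : ∀ x ∈ X, ∀ v : Fin m → G, (∀ i, v i ∈ B') → x - ∑ i, v i ∈ B1 := by
    intro x hx v hv
    refine mem_image.2 ⟨(x - x₀) - ∑ i, v i, bohr_mono ?_ (sub_mem (hsub x hx) (sum_mem m v hv)),
      by abel⟩
    have : (m:ℝ) * r ≤ s := by
      rw [← le_div_iff₀' hmpos]; linarith
    linarith
  have hlog : 4 / δ ^ 2 * log (2 * B1.card / X.card) ≤ K := by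
    refine mul_le_mul_of_nonneg_left ?_ (by positivity)
    have hB1c : B1.card = (bohr Γ (R + s)).card :=
      card_image_of_injective _ (add_left_injective x₀)
    have hB1pos : (0:ℝ) < B1.card := by rw [hB1c]; exact card_pos (by linarith)
    rw [log_le_iff_le_exp (by positivity), div_le_iff₀ hXpos, exp_add]
    have he : (2:ℝ) ≤ exp 1 := by linarith [exp_one_gt_d9]
    calc 2 * (B1.card : ℝ) ≤ exp 1 * (exp ℓ * X.card) :=
          mul_le_mul he (by rw [hB1c]; exact hℓ) hB1pos.le (exp_pos _).le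
      _ = _ := by ring
  obtain ⟨Λ, hΛ, hper⟩ := LocalChang.local_chang X B1 B' m δ hδ hδ1 hX (bohr_nonempty hrpos)
    hcov (lt_of_le_of_lt hlog hmK)
  set σ := s * η / (400 * (d + 1) * (K + 2)) with hσ
  have hσpos : 0 < σ := by positivity
  have hσR : σ ≤ s := by
    rw [hσ, div_le_iff₀ (by positivity)]
    nlinarith [mul_nonneg hd0 hK0]
  refine ⟨Λ, K, σ, rfl, rfl, hK0, hσpos, hσR, hΛ.trans hlog, ?_⟩
  intro Γ' hΓ hΛ' t ht γ hγ
  have hσs : σ ≤ u := by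
    rw [hσ, hu]
    calc s * η / (400 * (d + 1) * (K + 2)) ≤ s * η / (384 * (d + 1) * (m:ℝ)) := by
          refine div_le_div_of_nonneg_left (by positivity) (by positivity) ?_
          gcongr; norm_num
      _ = s / m * (η / 8) / (48 * ((Γ.card : ℝ) + 1)) := by rw [hd]; field_simp; ring
  have hts : t ∈ bohr Γ u := bohr_mono hσs (bohr_anti hΓ ht)
  refine (hper t (2 * (η / 8)) σ ((almost_period hupos.le (by positivity) hplat hts))
    (fun ψ hψ => mem_bohr.1 ht ψ (hΛ' hψ)) γ hγ).trans ?_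
  have h1 : (Λ.card : ℝ) * σ ≤ η / 2 := by
    calc (Λ.card : ℝ) * σ ≤ (K + 2) * σ :=
          mul_le_mul_of_nonneg_right (by linarith [hΛ.trans hlog]) hσpos.le
      _ = s * η / (400 * (d + 1)) := by rw [hσ]; field_simp
      _ ≤ η / 2 := by
          rw [div_le_div_iff₀ (by positivity) (by norm_num)]
          nlinarith
  linarith

end Vale.Agent.P057.Roth.Bohr
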