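import Mathlib

/-!
# A local form of Chang's lemma, by Riesz products

`X` is a finite subset of a finite abelian group, `B1` a set containing all `x - (v_1 + ... + v_m)`
(`x ∈ X`, `v_i ∈ B'`).  Then the `δ`-large spectrum of `X` is annihilated, up to `2ε + |Λ| η`, by
every `t` that moves `B'` by at most `ε|B'|` and has `|λ t - 1| ≤ η` on a set `Λ` of at most
`4/δ² log (2|B1|/|X|)` characters.
-/

namespace Vale.Agent.P057.Roth.LocalChang

open Finset Real
open scoped ComplexConjugate symmDiff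

set_option linter.unusedSectionVars false

variable {G : Type*} [AddCommGroup G] [Finite G]

/-- The sign choices of a Riesz product. -/
def signs : Finset ℤ := {-1, 0, 1}

/-- No nonzero `{-1,0,1}`-combination of `Λ` lies in the `1/2`-spectrum of `B'`. -/
def Dissoc (B' : Finset G) (Λ : Finset (AddChar G ℂ)) : Prop :=
  ∀ f : AddChar G ℂ → ℤ, (∀ γ ∈ Λ, f γ ∈ signs) → (∃ γ ∈ Λ, f γ ≠ 0) →
    2 * ‖∑ b ∈ B', (∑ γ ∈ Λ, f γ • γ) b‖ ≤ (B'.card : ℝ)

lemma Dissoc.subset {B' : Finset G} {Λ Λ' : Finset (AddChar G ℂ)} (h : Dissoc B' Λ)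
    (hs : Λ' ⊆ Λ) : Dissoc B' Λ' := by
  classical
  intro f hf hne
  let g : AddChar G ℂ → ℤ := fun γ => if γ ∈ Λ' then f γ else 0
  have hg : ∀ γ ∈ Λ, g γ ∈ signs := fun γ _ => by
    by_cases hγ : γ ∈ Λ'
    · simpa [g, hγ] using hf γ hγ
    · simp [g, hγ, signs]
  have hne' : ∃ γ ∈ Λ, g γ ≠ 0 := by
    obtain ⟨γ, hγ, h0⟩ := hne
    exact ⟨γ, hs hγ, by simpa [g, hγ] using h0⟩
  have hsum : ∑ γ ∈ Λ, g γ • γ = ∑ γ ∈ Λ', f γ • γ := by
    rw [← sum_subset hs (fun γ _ hγ => by simp [g, hγ])]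
    exact sum_congr rfl fun γ hγ => by simp [g, hγ]
  simpa [hsum] using h g hg hne'

lemma exp_le_one_add {u : ℝ} (h : |u| ≤ 1 / 2) : exp (u - u ^ 2) ≤ 1 + u := by
  obtain ⟨h1, h2⟩ := abs_le.1 h
  have hp : 0 < 1 + u := by linarith
  rw [← le_log_iff_exp_le hp]
  have hl := one_sub_inv_le_log_of_pos hp
  rcases le_or_gt 0 u with hu | hu
  · have : 1 - (1 + u)⁻¹ = u / (1 + u) := by field_simp; ring
    have h3 : u - u ^ 2 ≤ u / (1 + u) := by
      rw [le_div_iff₀ hp]; nlinarith [pow_nonneg hu 3]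
    linarith
  · -- `log (1+u) = - log (1/(1+u))`, and `log y ≤ (y - 1/y)/2` for `y ≥ 1`
    have hy : 1 ≤ (1 + u)⁻¹ := (one_le_inv₀ hp).2 (by linarith)
    have hs := self_le_sinh_iff.2 (log_nonneg hy)
    rw [sinh_eq, exp_log (inv_pos.2 hp), exp_neg, exp_log (inv_pos.2 hp), inv_inv, log_inv] at hs
    have h3 : ((1 + u)⁻¹ - (1 + u)) / 2 ≤ -(u - u ^ 2) := by
      rw [div_le_iff₀ (by norm_num : (0:ℝ) < 2), sub_le_iff_le_add, inv_eq_one_div,
        div_le_iff₀ hp]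
      nlinarith [mul_nonneg (sq_nonneg u) (show (0:ℝ) ≤ 1 / 2 + u by linarith), sq_nonneg u]
    linarith

lemma norm_prod_sub_one {ι : Type*} (s : Finset ι) (z : ι → ℂ) (hz : ∀ i ∈ s, ‖z i‖ = 1) :
    ‖∏ i ∈ s, z i - 1‖ ≤ ∑ i ∈ s, ‖z i - 1‖ := by
  classical
  induction s using Finset.induction_on with
  | empty => simp
  | insert a s ha ih =>
      rw [prod_insert ha, sum_insert ha]
      have h1 : z a * ∏ i ∈ s, z i - 1 = (z a - 1) + z a * (∏ i ∈ s, z i - 1) := by ring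
      rw [h1]
      refine (norm_add_le _ _).trans ?_
      rw [norm_mul, hz a (mem_insert_self a s), one_mul]
      gcongr
      exact ih fun i hi => hz i (mem_insert_of_mem hi)

lemma norm_zpow_sub_one {z : ℂ} (hz : ‖z‖ = 1) {e : ℤ} (he : e ∈ signs) :
    ‖z ^ e - 1‖ ≤ ‖z - 1‖ := by
  simp only [signs, mem_insert, mem_singleton] at he
  rcases he with rfl | rfl | rfl
  · have h0 : z ≠ 0 := fun h => by simp [h] at hz
    have : z ^ (-1 : ℤ) - 1 = -(z⁻¹ * (z - 1)) := by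
      rw [zpow_neg_one]; field_simp; ring
    rw [this, norm_neg, norm_mul, norm_inv, hz, inv_one, one_mul]
  · simp
  · simp

lemma norm_eq_zpow_sub_one {z : ℂ} (hz : ‖z‖ = 1) {e : ℤ} (he : e ∈ signs) (h0 : e ≠ 0) :
    ‖z ^ e - 1‖ = ‖z - 1‖ := by
  refine le_antisymm (norm_zpow_sub_one hz he) ?_
  simp only [signs, mem_insert, mem_singleton] at he
  rcases he with rfl | rfl | rfl
  · have := norm_zpow_sub_one (z := z⁻¹) (by simp [hz]) (show (-1 : ℤ) ∈ signs by simp [signs])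
    simpa using this
  · exact absurd rfl h0
  · simp

lemma map_sum_prod {ι : Type*} (ψ : AddChar G ℂ) (s : Finset ι) (v : ι → G) :
    ψ (∑ i ∈ s, v i) = ∏ i ∈ s, ψ (v i) := by
  classical
  induction s using Finset.induction_on with
  | empty => simp
  | insert a s ha ih => rw [sum_insert ha, prod_insert ha, AddChar.map_add_eq_mul, ih]

/-- A character in the `1/2`-spectrum of `B'` is within `2ε` of `1` on almost periods of `B'`. -/
lemma spectrum_period [DecidableEq G] (B' : Finset G) (ξ : AddChar G ℂ)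
    (hξ : (B'.card : ℝ) < 2 * ‖∑ b ∈ B', ξ b‖) (t : G) (ε : ℝ)
    (ht : (((B'.image (· + t)) ∆ B').card : ℝ) ≤ ε * B'.card) :
    ‖ξ t - 1‖ ≤ 2 * ε := by
  set S := ∑ b ∈ B', ξ b with hS
  have himg : ∑ b ∈ B'.image (· + t), ξ b = ξ t * S := by
    rw [sum_image (fun a _ b _ h => add_right_cancel h), hS, mul_sum]
    exact sum_congr rfl fun b _ => by rw [AddChar.map_add_eq_mul, mul_comm]
  set A := B'.image (· + t)
  have hdiff : (ξ t - 1) * S = ∑ b ∈ A \ B', ξ b - ∑ b ∈ B' \ A, ξ b := by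
    rw [Finset.sum_sdiff_sub_sum_sdiff, sub_mul, one_mul, himg]
  have hb : ∀ T : Finset G, ‖∑ b ∈ T, ξ b‖ ≤ (T.card : ℝ) := fun T =>
    (norm_sum_le _ _).trans (by simp [AddChar.norm_apply])
  have hcard : ((A \ B').card : ℝ) + (B' \ A).card = ((A ∆ B').card : ℝ) := by
    rw [← Nat.cast_add, symmDiff_def, sup_eq_union, card_union_of_disjoint]
    exact disjoint_sdiff_sdiff
  have hle : ‖ξ t - 1‖ * ‖S‖ ≤ ε * B'.card := by
    rw [← norm_mul, hdiff]
    refine (norm_sub_le _ _).trans ?_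
    linarith [hb (A \ B'), hb (B' \ A), hcard, ht]
  have hSpos : 0 < ‖S‖ := by
    have : (0:ℝ) ≤ B'.card := by positivity
    linarith
  have hε : 0 ≤ ε * B'.card := le_trans (by positivity) ht
  have hB : (0:ℝ) < B'.card := lt_of_lt_of_le hSpos (hb B')
  have hε' : 0 ≤ ε := nonneg_of_mul_nonneg_left hε hB
  by_contra hlt
  nlinarith [mul_lt_mul_of_pos_right (lt_of_not_ge hlt) hSpos, mul_le_mul_of_nonneg_left hξ.le hε']

/-- The Riesz product bound: a dissociated subset of the `δ`-spectrum is small. -/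
lemma card_le (X B1 B' : Finset G) (m : ℕ) (δ : ℝ) (hδ0 : 0 < δ) (hδ1 : δ ≤ 1)
    (hX : X.Nonempty) (hB' : B'.Nonempty)
    (hcov : ∀ x ∈ X, ∀ v : Fin m → G, (∀ i, v i ∈ B') → x - ∑ i, v i ∈ B1)
    (Λ : Finset (AddChar G ℂ)) (hΛ : ∀ γ ∈ Λ, δ * X.card ≤ ‖∑ x ∈ X, γ x‖)
    (hdis : Dissoc B' Λ) (hm : Λ.card ≤ m) :
    (Λ.card : ℝ) ≤ 4 / δ ^ 2 * log (2 * B1.card / X.card) := by
  classical
  set η : ℝ := δ / 2 with hη
  set S : AddChar G ℂ → ℂ := fun γ => ∑ x ∈ X, γ x with hS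
  set c : AddChar G ℂ → ℂ := fun γ => conj (S γ) / (‖S γ‖ : ℂ) with hc
  have hXpos : (0:ℝ) < X.card := by exact_mod_cast hX.card_pos
  have hSpos : ∀ γ ∈ Λ, 0 < ‖S γ‖ := fun γ hγ =>
    lt_of_lt_of_le (mul_pos hδ0 hXpos) (hΛ γ hγ)
  have hcnorm : ∀ γ ∈ Λ, ‖c γ‖ = 1 := fun γ hγ => by
    rw [hc]; simp only
    rw [norm_div, RCLike.norm_conj, Complex.norm_real, norm_norm,
      div_self (hSpos γ hγ).ne']
  -- the factors
  set u : AddChar G ℂ → G → ℝ := fun γ x => η * (c γ * γ x).re with hu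
  set P : G → ℝ := fun x => ∏ γ ∈ Λ, (1 + u γ x) with hP
  have hub : ∀ γ ∈ Λ, ∀ x, |u γ x| ≤ η := fun γ hγ x => by
    rw [hu]; simp only
    rw [abs_mul, abs_of_pos (by positivity : 0 < η)]
    refine mul_le_of_le_one_right (by positivity) ((Complex.abs_re_le_norm _).trans ?_)
    rw [norm_mul, hcnorm γ hγ, AddChar.norm_apply, mul_one]
  have hη2 : η ≤ 1 / 2 := by rw [hη]; linarith
  have hPpos : ∀ x, 0 ≤ P x := fun x => prod_nonneg fun γ hγ => by
    have := (abs_le.1 (hub γ hγ x)).1; linarith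
  -- lower bound
  set a : ℝ := (Λ.card : ℝ) * (δ ^ 2 / 4) with ha
  have hlow : (X.card : ℝ) * exp a ≤ ∑ x ∈ X, P x := by
    set g : G → ℝ := fun x => ∑ γ ∈ Λ, (u γ x - u γ x ^ 2) with hg
    have h1 : ∀ x, exp (g x) ≤ P x := fun x => by
      rw [hg, hP]; simp only
      rw [exp_sum]
      exact prod_le_prod (fun γ _ => (exp_pos _).le)
        (fun γ hγ => exp_le_one_add ((hub γ hγ x).trans hη2))
    have h2 : (X.card : ℝ) * a ≤ ∑ x ∈ X, g x := by
      rw [hg]; simp only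
      rw [sum_comm]
      have : ∀ γ ∈ Λ, (X.card : ℝ) * (δ ^ 2 / 4) ≤ ∑ x ∈ X, (u γ x - u γ x ^ 2) := by
        intro γ hγ
        have hlin : ∑ x ∈ X, u γ x = η * ‖S γ‖ := by
          rw [hu]; simp only
          rw [← mul_sum, ← Complex.re_sum, ← mul_sum]
          congr 1
          have hn : (‖S γ‖ : ℂ) ≠ 0 := by exact_mod_cast (hSpos γ hγ).ne'
          have : c γ * S γ = (‖S γ‖ : ℂ) := by
            rw [hc]; simp only
            rw [div_mul_eq_mul_div, mul_comm, Complex.mul_conj']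
            field_simp
          rw [show ∑ x ∈ X, γ x = S γ from rfl, this, Complex.ofReal_re]
        have hsq : ∑ x ∈ X, u γ x ^ 2 ≤ (X.card : ℝ) * η ^ 2 := by
          rw [← nsmul_eq_mul, ← sum_const]
          exact sum_le_sum fun x _ => sq_le_sq' (abs_le.1 (hub γ hγ x)).1
            (abs_le.1 (hub γ hγ x)).2
        rw [sum_sub_distrib, hlin]
        have := mul_le_mul_of_nonneg_left (hΛ γ hγ) (show 0 ≤ η by positivity)
        have hS' : ‖∑ x ∈ X, γ x‖ = ‖S γ‖ := rfl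
        rw [hS'] at this
        rw [hη] at this hsq ⊢
        nlinarith
      calc (X.card : ℝ) * a = ∑ γ ∈ Λ, (X.card : ℝ) * (δ ^ 2 / 4) := by
            rw [sum_const, nsmul_eq_mul, ha]; ring
        _ ≤ _ := sum_le_sum this
    calc (X.card : ℝ) * exp a
        ≤ (X.card : ℝ) * exp a + exp a * (∑ x ∈ X, g x - X.card * a) :=
          le_add_of_nonneg_right (mul_nonneg (exp_pos _).le (by linarith))
      _ = ∑ x ∈ X, exp a * (g x - a + 1) := by
          rw [← mul_sum, sum_add_distrib, sum_sub_distrib, sum_const, sum_const, nsmul_eq_mul,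
            nsmul_eq_mul]; ring
      _ ≤ ∑ x ∈ X, exp (g x) := sum_le_sum fun x _ => by
          rw [show exp (g x) = exp a * exp (g x - a) by rw [← exp_add]; ring_nf]
          exact mul_le_mul_of_nonneg_left (add_one_le_exp _) (exp_pos _).le
      _ ≤ _ := sum_le_sum fun x _ => h1 x
  -- averaging over `m`-tuples from `B'`
  set V := Fintype.piFinset (fun _ : Fin m => B') with hV
  have hVcard : (V.card : ℝ) = (B'.card : ℝ) ^ m := by simp [hV]
  have hcmp : (V.card : ℝ) * ∑ x ∈ X, P x ≤ ∑ v ∈ V, ∑ b ∈ B1, P (b + ∑ i, v i) := by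
    rw [← nsmul_eq_mul, ← sum_const]
    refine sum_le_sum fun v hv => ?_
    calc ∑ x ∈ X, P x = ∑ b ∈ X.image (fun x => x - ∑ i, v i), P (b + ∑ i, v i) := by
          rw [sum_image (fun a _ b _ h => sub_left_injective h)]
          simp
      _ ≤ _ := sum_le_sum_of_subset_of_nonneg (image_subset_iff.2 fun x hx =>
          hcov x hx v (Fintype.mem_piFinset.1 hv)) (fun _ _ _ => hPpos _)
  -- expansion
  set E := Fintype.piFinset (fun _ : Λ => signs) with hE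
  set w : Λ → ℤ → ℂ := fun γ e =>
    if e = 0 then 1 else if e = 1 then (η / 2 : ℂ) * c γ else (η / 2 : ℂ) * conj (c γ) with hw
  set ξ : (Λ → ℤ) → AddChar G ℂ := fun f => ∑ γ : Λ, f γ • (γ : AddChar G ℂ) with hξ
  set A : (Λ → ℤ) → ℂ := fun f => ∏ γ : Λ, w γ (f γ) with hA
  have hexp : ∀ x, (P x : ℂ) = ∑ f ∈ E, A f * ξ f x := fun x => by
    have hfac : ∀ γ : Λ, ((1 + u γ x : ℝ) : ℂ) = ∑ e ∈ signs, w γ e * (γ : AddChar G ℂ) x ^ e := by
      intro γ
      set z := (γ : AddChar G ℂ) x with hz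
      have hz' : z⁻¹ = conj z := AddChar.inv_apply_eq_conj _ _
      rw [signs, sum_insert (by simp), sum_insert (by simp), sum_singleton, hw]
      simp only [hu, zpow_neg_one, zpow_zero, zpow_one, ↓reduceIte,
        show (-1 : ℤ) ≠ 0 by norm_num, show (-1 : ℤ) ≠ 1 by norm_num,
        show (1 : ℤ) ≠ 0 by norm_num, hz', ← hz]
      push_cast
      rw [Complex.re_eq_add_conj, map_mul]
      ring
    rw [hP]; simp only
    rw [← prod_coe_sort Λ, Complex.ofReal_prod]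
    simp only [hfac]
    rw [prod_univ_sum]
    refine sum_congr rfl fun f _ => ?_
    rw [prod_mul_distrib, hA, hξ, AddChar.sum_apply]
    simp [AddChar.zsmul_apply]
  have hsum : ((∑ v ∈ V, ∑ b ∈ B1, P (b + ∑ i, v i) : ℝ) : ℂ)
      = ∑ f ∈ E, A f * ((∑ b ∈ B1, ξ f b) * (∑ b ∈ B', ξ f b) ^ m) := by
    push_cast
    simp only [hexp]
    rw [sum_congr rfl fun v _ => sum_comm, sum_comm]
    refine sum_congr rfl fun f _ => ?_
    simp only [AddChar.map_add_eq_mul, map_sum_prod, sum_pow', mul_sum, ← mul_assoc,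
      sum_mul]
    rw [sum_comm]
  have hnonzero : ∀ f ∈ E, f ≠ 0 → 2 * ‖∑ b ∈ B', ξ f b‖ ≤ (B'.card : ℝ) := by
    intro f hf h0
    let g : AddChar G ℂ → ℤ := fun γ => if h : γ ∈ Λ then f ⟨γ, h⟩ else 0
    have hval : ∀ γ : Λ, g γ = f γ := fun γ => by simp [g, γ.2]
    have hg : ∀ γ ∈ Λ, g γ ∈ signs := fun γ hγ => by
      simpa [g, hγ] using Fintype.mem_piFinset.1 hf ⟨γ, hγ⟩
    have hne : ∃ γ ∈ Λ, g γ ≠ 0 := by
      obtain ⟨γ, hγ⟩ := Function.ne_iff.1 h0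
      exact ⟨γ, γ.2, by simpa [hval] using hγ⟩
    have heq : ∑ γ ∈ Λ, g γ • γ = ξ f := by
      rw [← sum_coe_sort Λ]; exact sum_congr rfl fun γ _ => by rw [hval]
    simpa [heq] using hdis g hg hne
  have hAnorm : ∑ f ∈ E, ‖A f‖ ≤ 2 ^ Λ.card := by
    simp only [hA, norm_prod]
    rw [hE, ← prod_univ_sum (fun _ : Λ => signs) (fun γ e => ‖w γ e‖), ← Fintype.card_coe Λ, ← card_univ, ← prod_const]
    refine prod_le_prod (fun γ _ => sum_nonneg fun e _ => norm_nonneg _) fun γ _ => ?_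
    rw [signs, sum_insert (by simp), sum_insert (by simp), sum_singleton, hw]
    simp only [show (-1 : ℤ) ≠ 0 by norm_num, show (-1 : ℤ) ≠ 1 by norm_num,
      show (1 : ℤ) ≠ 0 by norm_num, ↓reduceIte, norm_mul, norm_div, Complex.norm_real,
      RCLike.norm_conj, hcnorm γ γ.2, norm_one, Complex.norm_ofNat,
      Real.norm_of_nonneg (show 0 ≤ η by positivity)]
    linarith
  have hterm : ∀ f ∈ E, ‖A f * ((∑ b ∈ B1, ξ f b) * (∑ b ∈ B', ξ f b) ^ m)‖ ≤
      (B1.card : ℝ) * (B'.card : ℝ) ^ m * ((if f = 0 then 1 else 0) + ‖A f‖ / 2 ^ m) := by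
    intro f hf
    have hB1 : ‖∑ b ∈ B1, ξ f b‖ ≤ (B1.card : ℝ) :=
      (norm_sum_le _ _).trans (by simp [AddChar.norm_apply])
    have hBm : ∀ r : ℝ, ‖∑ b ∈ B', ξ f b‖ ≤ r →
        ‖A f * ((∑ b ∈ B1, ξ f b) * (∑ b ∈ B', ξ f b) ^ m)‖ ≤ ‖A f‖ * (B1.card * r ^ m) :=
      fun r hr => by
        rw [norm_mul, norm_mul, norm_pow]
        gcongr
    by_cases h0 : f = 0
    · refine (hBm (B'.card : ℝ) ((norm_sum_le _ _).trans (by simp [AddChar.norm_apply]))).trans ?_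
      have : ‖A f‖ = 1 := by simp [hA, hw, h0]
      rw [this, one_mul, if_pos h0]
      exact le_mul_of_one_le_right (by positivity) (le_add_of_nonneg_right (by positivity))
    · refine (hBm ((B'.card : ℝ) / 2) ?_).trans (le_of_eq ?_)
      · linarith [hnonzero f hf h0]
      · rw [if_neg h0, zero_add, div_pow]; ring
  have hup : ∑ v ∈ V, ∑ b ∈ B1, P (b + ∑ i, v i) ≤ 2 * B1.card * (B'.card : ℝ) ^ m := by
    set T := ∑ v ∈ V, ∑ b ∈ B1, P (b + ∑ i, v i) with hT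
    have h1 : T ≤ ‖(T : ℂ)‖ := by rw [Complex.norm_real]; exact le_abs_self T
    rw [hT, hsum] at h1
    refine h1.trans ((norm_sum_le _ _).trans ((sum_le_sum hterm).trans ?_))
    rw [← mul_sum, sum_add_distrib, ← sum_div]
    have hz : ∑ f ∈ E, (if f = 0 then (1:ℝ) else 0) ≤ 1 := by
      rw [sum_ite_eq']; split_ifs <;> norm_num
    have h2 : (∑ f ∈ E, ‖A f‖) / 2 ^ m ≤ (1:ℝ) := by
      rw [div_le_one (by positivity)]
      exact hAnorm.trans (pow_le_pow_right₀ (by norm_num) hm)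
    calc _ ≤ (B1.card : ℝ) * (B'.card : ℝ) ^ m * 2 :=
          mul_le_mul_of_nonneg_left (by linarith) (by positivity)
      _ = _ := by ring
  have hBpos : (0:ℝ) < (B'.card : ℝ) ^ m := pow_pos (by exact_mod_cast hB'.card_pos) m
  have hmain : (X.card : ℝ) * exp a ≤ 2 * B1.card := by
    refine le_of_mul_le_mul_left ?_ hBpos
    calc (B'.card : ℝ) ^ m * ((X.card : ℝ) * exp a)
        ≤ (B'.card : ℝ) ^ m * ∑ x ∈ X, P x := mul_le_mul_of_nonneg_left hlow hBpos.le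
      _ = (V.card : ℝ) * ∑ x ∈ X, P x := by rw [hVcard]
      _ ≤ _ := hcmp.trans (hup.trans_eq (by ring))
  have hpos2 : 0 < 2 * (B1.card : ℝ) / X.card :=
    div_pos (lt_of_lt_of_le (mul_pos hXpos (exp_pos a)) hmain) hXpos
  have : a ≤ log (2 * B1.card / X.card) := by
    rw [le_log_iff_exp_le hpos2, le_div_iff₀ hXpos]; linarith
  rw [ha] at this
  rw [div_mul_eq_mul_div, le_div_iff₀ (by positivity)]
  nlinarith

/-- **Local Chang lemma.** -/
theorem local_chang [DecidableEq G] (X B1 B' : Finset G) (m : ℕ) (δ : ℝ) (hδ0 : 0 < δ)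
    (hδ1 : δ ≤ 1) (hX : X.Nonempty) (hB' : B'.Nonempty)
    (hcov : ∀ x ∈ X, ∀ v : Fin m → G, (∀ i, v i ∈ B') → x - ∑ i, v i ∈ B1)
    (hm : 4 / δ ^ 2 * log (2 * B1.card / X.card) < m) :
    ∃ Λ : Finset (AddChar G ℂ),
      (Λ.card : ℝ) ≤ 4 / δ ^ 2 * log (2 * B1.card / X.card) ∧
      ∀ (t : G) (ε η : ℝ), (((B'.image (· + t)) ∆ B').card : ℝ) ≤ ε * B'.card →
        (∀ ψ ∈ Λ, ‖ψ t - 1‖ ≤ η) →
        ∀ γ : AddChar G ℂ, δ * X.card ≤ ‖∑ x ∈ X, γ x‖ →
          ‖γ t - 1‖ ≤ 2 * ε + Λ.card * η := by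
  classical
  have := Fintype.ofFinite (AddChar G ℂ)
  set Δ := univ.filter fun γ : AddChar G ℂ => δ * X.card ≤ ‖∑ x ∈ X, γ x‖ with hΔ
  set F := Δ.powerset.filter fun Λ => Dissoc B' Λ with hF
  have hFne : F.Nonempty :=
    ⟨∅, mem_filter.2 ⟨empty_mem_powerset _, fun f _ ⟨γ, hγ, _⟩ => absurd hγ (by simp)⟩⟩
  obtain ⟨Λ, hΛ, hmax⟩ := exists_max_image F Finset.card hFne
  obtain ⟨hsub, hdis⟩ := mem_filter.1 hΛ
  rw [mem_powerset] at hsub
  have hspec : ∀ γ ∈ Λ, δ * X.card ≤ ‖∑ x ∈ X, γ x‖ := fun γ hγ => (mem_filter.1 (hsub hγ)).2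
  have hcard : Λ.card ≤ m := by
    by_contra hlt
    obtain ⟨Λ', hs, hc⟩ := exists_subset_card_eq (le_of_not_ge hlt)
    have := card_le X B1 B' m δ hδ0 hδ1 hX hB' hcov Λ' (fun γ hγ => hspec γ (hs hγ))
      (hdis.subset hs) hc.le
    rw [hc] at this
    linarith
  refine ⟨Λ, card_le X B1 B' m δ hδ0 hδ1 hX hB' hcov Λ hspec hdis hcard, ?_⟩
  intro t ε η ht hη γ hγ
  have hBpos : (0:ℝ) < B'.card := by exact_mod_cast hB'.card_pos
  have hε : 0 ≤ ε := by
    by_contra h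
    have : ε * B'.card < 0 := mul_neg_of_neg_of_pos (lt_of_not_ge h) hBpos
    have : (0:ℝ) ≤ (((B'.image (· + t)) ∆ B').card : ℝ) := by positivity
    linarith
  by_cases hmem : γ ∈ Λ
  · have h1 : (1:ℝ) ≤ Λ.card := by exact_mod_cast card_pos.2 ⟨γ, hmem⟩
    have h2 : 0 ≤ η := (norm_nonneg _).trans (hη γ hmem)
    nlinarith [hη γ hmem, mul_le_mul_of_nonneg_right h1 h2]
  have hnd : ¬ Dissoc B' (insert γ Λ) := by
    intro hd
    have hle := hmax (insert γ Λ) (mem_filter.2 ⟨mem_powerset.2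
      (insert_subset (mem_filter.2 ⟨mem_univ _, hγ⟩) hsub), hd⟩)
    rw [card_insert_of_notMem hmem] at hle
    omega
  simp only [Dissoc, not_forall, not_le] at hnd
  obtain ⟨f, hf, hne, hlarge⟩ := hnd
  have hfγ : f γ ≠ 0 := by
    intro h0
    obtain ⟨γ', hγ', h'⟩ := hne
    rcases mem_insert.1 hγ' with rfl | hγ'
    · exact h' h0
    have := hdis f (fun a ha => hf a (mem_insert_of_mem ha)) ⟨γ', hγ', h'⟩
    rw [sum_insert hmem, h0, zero_zsmul, zero_add] at hlarge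
    linarith
  rw [sum_insert hmem] at hlarge
  have hξ := spectrum_period B' _ hlarge t ε ht
  set R := ∑ a ∈ Λ, f a • a with hR
  have hRt : ‖R t - 1‖ ≤ Λ.card * η := by
    rw [hR, AddChar.sum_apply]
    simp only [AddChar.zsmul_apply]
    refine (norm_prod_sub_one Λ _ fun i _ => by simp [norm_zpow, AddChar.norm_apply]).trans ?_
    rw [← nsmul_eq_mul, ← sum_const]
    exact sum_le_sum fun a ha => (norm_zpow_sub_one (AddChar.norm_apply a t)
      (hf a (mem_insert_of_mem ha))).trans (hη a ha)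
  rw [AddChar.add_apply, AddChar.zsmul_apply] at hξ
  have hsplit : ‖(γ t) ^ f γ - 1‖ ≤ 2 * ε + Λ.card * η := by
    set z := (γ t) ^ f γ with hz
    have hnz : ‖z‖ = 1 := by simp [hz, norm_zpow, AddChar.norm_apply]
    calc ‖z - 1‖ = ‖(z * R t - 1) - z * (R t - 1)‖ := by ring_nf
      _ ≤ ‖z * R t - 1‖ + ‖z * (R t - 1)‖ := norm_sub_le _ _
      _ ≤ _ := by rw [norm_mul, hnz, one_mul]; linarith
  rwa [norm_eq_zpow_sub_one (AddChar.norm_apply γ t) (hf γ (mem_insert_self γ Λ)) hfγ] at hsplit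

end Vale.Agent.P057.Roth.LocalChang
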