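import Vale.Agent.P057.Roth.Bohr

/-!
# From one density-increment step to the bound on `r₃(N)`

`StepFor C L P` is the statement of one step, for an abstract predicate `P α Γ ρ`.  Iterating it
gives `log |G| ≤ K L^6 log (2L)` with `2^(-L) ≤` density, and hence
`r₃(N) ≤ K N exp (-c (log N / log log N)^(1/6))`.
-/

namespace Vale.Agent.P057.Roth.Outer

open Finset Real
open Vale.Agent.P057.Roth.Bohr

/-- `log (C (100 C L^5 + 1) L) = O(log (2L))`. -/
lemma log_budget {C L : ℝ} (hC : 1 ≤ C) (hL : 1 ≤ L) :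
    log (C * (100 * C * L ^ 5 + 1) * L) ≤ 208 * C ^ 2 * log (2 * L) := by
  have hLpos : 0 < L := by linarith
  have hl2 : log 2 ≤ log (2 * L) := log_le_log (by norm_num) (by linarith)
  have h1 : C * (100 * C * L ^ 5 + 1) * L ≤ 101 * C ^ 2 * L ^ 6 := by
    have e1 : 1 ≤ C * L ^ 5 := one_le_mul_of_one_le_of_one_le hC (one_le_pow₀ hL)
    calc C * (100 * C * L ^ 5 + 1) * L ≤ C * (100 * C * L ^ 5 + C * L ^ 5) * L := by gcongr
      _ = _ := by ring
  refine (log_le_log (by positivity) h1).trans ?_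
  rw [log_mul (by positivity) (by positivity), log_pow]
  push_cast
  have h2 := log_le_sub_one_of_pos (show (0:ℝ) < 101 * C ^ 2 by positivity)
  have h3 : log L ≤ log (2 * L) := log_le_log hLpos (by linarith)
  have h4 : (1:ℝ) ≤ 2 * log (2 * L) := by linarith [log_two_gt_d9]
  have h5 := mul_le_mul_of_nonneg_left h4 (show (0:ℝ) ≤ 101 * C ^ 2 by positivity)
  have h6 : log (2 * L) ≤ C ^ 2 * log (2 * L) :=
    le_mul_of_one_le_left (by linarith) (one_le_pow₀ hC)
  linarith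

/-- The step, for an abstract notion `P α Γ ρ` of having density `α` on the Bohr set `(Γ, ρ)`. -/
def StepFor {G : Type} [AddCommGroup G] [Fintype G] (C : ℝ) (L : ℕ)
    (P : ℝ → Finset (AddChar G ℂ) → ℝ → Prop) : Prop :=
  ∀ (α : ℝ) (Γ : Finset (AddChar G ℂ)) (ρ : ℝ),
    (1 / 2 : ℝ) ^ L ≤ α → 0 < ρ → ρ ≤ 1 → P α Γ ρ →
      ((Fintype.card G : ℝ) * (ρ / (C * ((Γ.card : ℝ) + 1))) ^ (2 * Γ.card) * α ^ 2 ≤ C) ∨
      ∃ (Γ' : Finset (AddChar G ℂ)) (ρ' : ℝ), (Γ'.card : ℝ) ≤ (Γ.card : ℝ) + C * (L : ℝ) ^ 4 ∧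
        ρ / (C * ((Γ.card : ℝ) + 1) * (L : ℝ)) ^ 20 ≤ ρ' ∧ ρ' ≤ 1 ∧ 0 < ρ' ∧
        P (101 / 100 * α) Γ' ρ'

/-- Iteration of the step: `log |G| ≤ K L^6 log (2L)`. -/
theorem log_card_le {G : Type} [AddCommGroup G] [Fintype G] {C : ℝ} (hC : 1 ≤ C) {L : ℕ}
    (hL : 1 ≤ L) {P : ℝ → Finset (AddChar G ℂ) → ℝ → Prop} {α₀ : ℝ}
    (hα₀ : (1 / 2 : ℝ) ^ L ≤ α₀) (hinit : P α₀ ∅ 1)
    (hle : ∀ α Γ ρ, 0 < ρ → ρ ≤ 1 → P α Γ ρ → α ≤ 1) (hstep : StepFor C L P) :
    log (Fintype.card G) ≤ 100000000 * C ^ 3 * (L : ℝ) ^ 6 * log (2 * L) := by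
  set R : ℝ := (L : ℝ) with hR
  have hR1 : 1 ≤ R := by rw [hR]; exact_mod_cast hL
  have hRpos : 0 < R := by linarith
  set D := C * (100 * C * R ^ 5 + 1) * R with hD
  have hD1 : 1 ≤ D := by
    refine one_le_mul_of_one_le_of_one_le (one_le_mul_of_one_le_of_one_le hC ?_) hR1
    have : 0 ≤ 100 * C * R ^ 5 := by positivity
    linarith
  let St : ℕ → Prop := fun k => ∃ (Γ : Finset (AddChar G ℂ)) (ρ : ℝ),
    (Γ.card : ℝ) ≤ k * C * R ^ 4 ∧ 0 < ρ ∧ ρ ≤ 1 ∧ 1 ≤ ρ * D ^ (20 * k) ∧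
      P ((101 / 100 : ℝ) ^ k * α₀) Γ ρ
  have hα0pos : 0 < α₀ := lt_of_lt_of_le (by positivity) hα₀
  have hkle : ∀ k, St k → k ≤ 100 * L := by
    rintro k ⟨Γ, ρ, -, hρ, hρ1, -, hP⟩
    have h := hle _ _ _ hρ hρ1 hP
    by_contra hlt
    have h2 : (2:ℝ) ≤ (101 / 100 : ℝ) ^ 100 := by norm_num
    have h3 : (2:ℝ) ^ L < (101 / 100 : ℝ) ^ k :=
      lt_of_le_of_lt (pow_le_pow_left₀ (by norm_num) h2 L)
        (by rw [← pow_mul]; exact pow_lt_pow_right₀ (by norm_num) (by omega))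
    have h4 : (1:ℝ) ≤ 2 ^ L * α₀ := by
      rw [one_div, inv_pow, inv_le_iff_one_le_mul₀ (by positivity)] at hα₀
      linarith
    have h5 := mul_lt_mul_of_pos_right h3 hα0pos
    linarith
  have hdim : ∀ k, St k → (k : ℝ) * C * R ^ 4 ≤ 100 * C * R ^ 5 := fun k hk => by
    have hk' : (k : ℝ) ≤ 100 * R := by rw [hR]; exact_mod_cast hkle k hk
    calc (k : ℝ) * C * R ^ 4 ≤ 100 * R * C * R ^ 4 := by gcongr
      _ = _ := by ring
  obtain ⟨k, hk, Γ, ρ, hd, hρ, hρ1, hρD, α, hα, hsmall⟩ : ∃ k, St k ∧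
      ∃ (Γ : Finset (AddChar G ℂ)) (ρ : ℝ), (Γ.card : ℝ) ≤ k * C * R ^ 4 ∧ 0 < ρ ∧ ρ ≤ 1 ∧
        1 ≤ ρ * D ^ (20 * k) ∧ ∃ α : ℝ, (1 / 2 : ℝ) ^ L ≤ α ∧
          (Fintype.card G : ℝ) * (ρ / (C * ((Γ.card : ℝ) + 1))) ^ (2 * Γ.card) * α ^ 2 ≤ C := by
    by_contra hcon
    have hall : ∀ k, St k := by
      intro k
      induction k with
      | zero => exact ⟨∅, 1, by simp, one_pos, le_rfl, by simp, by simpa using hinit⟩
      | succ k ih =>
          have ih0 := ih
          obtain ⟨Γ, ρ, hd, hρ, hρ1, hρD, hP⟩ := ih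
          have hαk : (1 / 2 : ℝ) ^ L ≤ (101 / 100 : ℝ) ^ k * α₀ :=
            hα₀.trans (le_mul_of_one_le_left hα0pos.le (one_le_pow₀ (by norm_num)))
          rcases hstep _ Γ ρ hαk hρ hρ1 hP with h | h
          · exact absurd ⟨k, ih0, Γ, ρ, hd, hρ, hρ1, hρD, _, hαk, h⟩ hcon
          obtain ⟨Γ', ρ', hd', hρ', hρ'1, hρ'0, hP'⟩ := h
          refine ⟨Γ', ρ', ?_, hρ'0, hρ'1, ?_, ?_⟩
          · push_cast; linarith
          · have hq : (C * ((Γ.card : ℝ) + 1) * R) ^ 20 ≤ D ^ 20 := by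
              refine pow_le_pow_left₀ (by positivity) ?_ _
              rw [hD]; gcongr
              exact hd.trans (hdim k ih0)
            rw [div_le_iff₀ (by positivity)] at hρ'
            calc (1:ℝ) ≤ ρ * D ^ (20 * k) := hρD
              _ ≤ ρ' * D ^ 20 * D ^ (20 * k) := mul_le_mul_of_nonneg_right
                  (hρ'.trans (mul_le_mul_of_nonneg_left hq hρ'0.le)) (by positivity)
              _ = ρ' * D ^ (20 * (k + 1)) := by rw [Nat.mul_succ, pow_add]; ring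
          · rw [pow_succ', mul_assoc]; exact hP'
    exact absurd (hkle _ (hall (100 * L + 1))) (by omega)
  set N := (Fintype.card G : ℝ) with hN
  have hNpos : 0 < N := by rw [hN]; exact_mod_cast Fintype.card_pos
  set d : ℝ := (Γ.card : ℝ) with hdd
  have hd5 : d ≤ 100 * C * R ^ 5 := hd.trans (hdim k hk)
  set q := ρ / (C * (d + 1)) with hq
  have hqpos : 0 < q := by positivity
  have hαpos : 0 < α := lt_of_lt_of_le (by positivity) hα
  have hlogD : log D ≤ 208 * C ^ 2 * log (2 * R) := log_budget hC hR1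
  have hlogD0 : 0 ≤ log D := log_nonneg hD1
  have hlq : -log q ≤ 2001 * R * (208 * C ^ 2 * log (2 * R)) := by
    have h1 : 1 ≤ q * D ^ (20 * k + 1) := by
      have hfac : C * (d + 1) ≤ D :=
        (le_mul_of_one_le_right (by positivity) hR1).trans (by rw [hD]; gcongr)
      calc (1:ℝ) ≤ ρ * D ^ (20 * k) := hρD
        _ = q * (C * (d + 1)) * D ^ (20 * k) := by rw [hq, div_mul_cancel₀ _ (by positivity)]
        _ ≤ q * D * D ^ (20 * k) := by gcongr
        _ = _ := by ring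
    have h2 := log_nonneg h1
    rw [log_mul hqpos.ne' (by positivity), log_pow] at h2
    push_cast at h2
    have hk' : (k : ℝ) ≤ 100 * R := by rw [hR]; exact_mod_cast hkle k hk
    calc -log q ≤ (20 * (k:ℝ) + 1) * log D := by linarith
      _ ≤ (2001 * R) * (208 * C ^ 2 * log (2 * R)) :=
          mul_le_mul (by linarith) hlogD hlogD0 (by positivity)
      _ = _ := by ring
  have hmain : log N ≤ log C + 2 * (d * -log q) + 2 * -log α := by
    have h := log_le_log (by positivity) hsmall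
    rw [log_mul (by positivity) (by positivity), log_mul hNpos.ne' (by positivity), log_pow,
      log_pow] at h
    push_cast at h
    linarith
  have hla : -log α ≤ R * log 2 := by
    have h := log_le_log (by positivity) hα
    rw [log_pow, one_div, log_inv] at h
    linarith
  have hl : log 2 ≤ log (2 * R) := log_le_log (by norm_num) (by linarith)
  have hlq0 : 0 ≤ -log q := by
    have : q ≤ 1 := by
      rw [hq, div_le_one (by positivity)]
      exact hρ1.trans (one_le_mul_of_one_le_of_one_le hC (le_add_of_nonneg_left (by positivity)))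
    linarith [log_nonpos hqpos.le this]
  have hdq : d * -log q ≤ 100 * C * R ^ 5 * (2001 * R * (208 * C ^ 2 * log (2 * R))) :=
    mul_le_mul hd5 hlq hlq0 (by positivity)
  set l := log (2 * R) with hl'
  have hlpos : 1 / 2 ≤ l := by linarith [log_two_gt_d9]
  have hC3 : (1:ℝ) ≤ C ^ 3 := one_le_pow₀ hC
  have hR6 : R ≤ R ^ 6 := le_self_pow₀ hR1 (by norm_num)
  have e1 : log C ≤ 2 * C ^ 3 * R ^ 6 * l := by
    refine (log_le_sub_one_of_pos (by linarith)).trans ?_
    have : C * 1 * 1 ≤ C ^ 3 * R ^ 6 * (2 * l) := by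
      gcongr
      · exact le_self_pow₀ hC (by norm_num)
      · exact hR1.trans hR6
      · linarith
    linarith
  have e2 : R * log 2 ≤ C ^ 3 * R ^ 6 * l := by
    refine mul_le_mul (hR6.trans (le_mul_of_one_le_left (by positivity) hC3)) hl
      (by linarith [log_two_gt_d9]) (by positivity)
  have e3 : 0 ≤ C ^ 3 * R ^ 6 * l := by positivity
  linarith

/-- A progression-free subset of `{0, …, N-1}` stays progression-free in `ℤ/(2N+1)`. -/
lemma exists_zmod (N : ℕ) : ∃ A : Finset (ZMod (2 * N + 1)),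
    A.card = rothNumberNat N ∧ ThreeAPFree (A : Set (ZMod (2 * N + 1))) := by
  obtain ⟨t, ht, htc, hfree⟩ := rothNumberNat_spec N
  refine ⟨t.image Nat.cast, ?_, ?_⟩
  · rw [card_image_of_injOn, htc]
    intro a ha b hb h
    have := mem_range.1 (ht ha)
    have := mem_range.1 (ht hb)
    rw [ZMod.natCast_eq_natCast_iff', Nat.mod_eq_of_lt (by omega), Nat.mod_eq_of_lt (by omega)] at h
    exact h
  · rw [coe_image]
    rintro _ ⟨a, ha, rfl⟩ _ ⟨b, hb, rfl⟩ _ ⟨c, hc, rfl⟩ h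
    have := mem_range.1 (ht ha)
    have := mem_range.1 (ht hb)
    have := mem_range.1 (ht hc)
    rw [← Nat.cast_add, ← Nat.cast_add, ZMod.natCast_eq_natCast_iff', Nat.mod_eq_of_lt (by omega),
      Nat.mod_eq_of_lt (by omega)] at h
    rw [hfree ha hb hc h]

/-- The final bound, given the step. -/
theorem roth_bound {C : ℝ} (hC : 1 ≤ C)
    (P : ∀ (M : ℕ) [NeZero M], Finset (ZMod M) → ℝ → Finset (AddChar (ZMod M) ℂ) → ℝ → Prop)
    (hinit : ∀ (M : ℕ) [NeZero M] (A : Finset (ZMod M)),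
      P M A ((A.card : ℝ) / M) ∅ 1)
    (hle : ∀ (M : ℕ) [NeZero M] (A : Finset (ZMod M)) (α : ℝ)
      (Γ : Finset (AddChar (ZMod M) ℂ)) (ρ : ℝ), 0 < ρ → ρ ≤ 1 → P M A α Γ ρ → α ≤ 1)
    (hstep : ∀ (M : ℕ) [NeZero M], Odd M → ∀ A : Finset (ZMod M),
      ThreeAPFree (A : Set (ZMod M)) → ∀ L : ℕ, 1 ≤ L → StepFor C L (P M A)) :
    ∃ c K : ℝ, 0 < c ∧ 0 < K ∧ ∀ N : ℕ, 16 ≤ N → (rothNumberNat N : ℝ) ≤
      K * N * exp (-c * (log N / log (log N)) ^ (1 / 6 : ℝ)) := by
  set K' := 400000000 * C ^ 3 with hK'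
  have hC0 : 0 < C := by linarith
  refine ⟨log 2 * (1 / K') ^ (1 / 6 : ℝ), 12, by positivity, by norm_num, fun N hN => ?_⟩
  obtain ⟨A, hAc, hfree⟩ := exists_zmod N
  have hNr : (16:ℝ) ≤ N := by exact_mod_cast hN
  rw [← hAc]
  rcases A.eq_empty_or_nonempty with rfl | hA
  · rw [card_empty]; push_cast; positivity
  have hApos : 0 < A.card := hA.card_pos
  have hex : ∃ j, 2 * N + 1 ≤ 2 ^ j * A.card :=
    ⟨2 * N + 1, le_trans Nat.lt_two_pow_self.le (Nat.le_mul_of_pos_right _ hApos)⟩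
  obtain ⟨L, hL⟩ : ∃ L, L = Nat.find hex + 1 := ⟨_, rfl⟩
  have hup : 2 * N + 1 ≤ 2 ^ L * A.card :=
    (Nat.find_spec hex).trans (Nat.mul_le_mul_right _ (Nat.pow_le_pow_right (by norm_num) (by omega)))
  have hdown : 2 ^ L * A.card ≤ 4 * (2 * N + 1) := by
    rcases Nat.eq_zero_or_pos (Nat.find hex) with h0 | h0
    · have hAle : A.card ≤ 2 * N + 1 := (card_le_univ A).trans_eq (ZMod.card _)
      rw [hL, h0]; omega
    · have h := Nat.find_min hex (show Nat.find hex - 1 < Nat.find hex by omega)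
      have e : 2 ^ L = 4 * 2 ^ (Nat.find hex - 1) := by
        rw [show L = 2 + (Nat.find hex - 1) by omega, pow_add]; norm_num
      rw [e, mul_assoc]; omega
  have hαL : (1 / 2 : ℝ) ^ L ≤ (A.card : ℝ) / ((2 * N + 1 : ℕ) : ℝ) := by
    have h : ((2 * N + 1 : ℕ) : ℝ) ≤ 2 ^ L * A.card := by exact_mod_cast hup
    rw [one_div, inv_pow, le_div_iff₀ (by positivity), inv_mul_le_iff₀ (by positivity)]
    exact h
  have h := log_card_le hC (show 1 ≤ L by omega) hαL (hinit (2 * N + 1) A)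
    (hle (2 * N + 1) A) (hstep (2 * N + 1) ⟨N, rfl⟩ A hfree L (show 1 ≤ L by omega))
  rw [ZMod.card] at h
  push_cast at h
  set R : ℝ := (L : ℝ) with hR
  have hR1 : 1 ≤ R := by rw [hR]; exact_mod_cast (show 1 ≤ L by omega)
  have hA1 : (1:ℝ) ≤ A.card := by exact_mod_cast hApos
  have hdown' : 2 ^ L * (A.card : ℝ) ≤ 4 * (2 * (N:ℝ) + 1) := by exact_mod_cast hdown
  have hlN : (2.7:ℝ) ≤ log N := by
    refine le_trans ?_ (log_le_log (by norm_num) hNr)
    rw [show (16:ℝ) = 2 ^ 4 by norm_num, log_pow]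
    push_cast
    linarith [log_two_gt_d9]
  have hll : 0.8 ≤ log (log N) := by
    rw [le_log_iff_exp_le (by linarith)]
    refine le_trans ?_ hlN
    calc exp 0.8 ≤ exp 1 ^ (1:ℕ) * exp (-0.2) := by rw [pow_one, ← exp_add]; norm_num
      _ ≤ 2.7182818286 * (1 / 1.2) := by
          refine mul_le_mul (by simpa using exp_one_lt_d9.le) ?_ (exp_pos _).le (by norm_num)
          rw [exp_neg, one_div]
          gcongr
          linarith [add_one_le_exp (0.2:ℝ)]
      _ ≤ 2.7 := by norm_num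
  have hRN : R * log 2 ≤ 2 * log N := by
    have h1 : (2:ℝ) ^ L ≤ (N:ℝ) ^ 2 := by
      refine (le_mul_of_one_le_right (by positivity) hA1).trans (hdown'.trans ?_)
      nlinarith
    have h2 := log_le_log (by positivity) h1
    rw [log_pow, log_pow] at h2
    push_cast at h2
    exact h2
  have hl2R : log (2 * R) ≤ 4 * log (log N) := by
    have h4 : 2 * R ≤ 2 ^ 3 * log N := by nlinarith [log_two_gt_d9]
    refine (log_le_log (by linarith) h4).trans ?_
    rw [log_mul (by norm_num) (by linarith), log_pow]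
    push_cast
    linarith [log_two_lt_d9]
  have hlogN : log N ≤ K' * R ^ 6 * log (log N) := by
    refine le_trans (log_le_log (by linarith) (by linarith)) (h.trans ?_)
    calc 100000000 * C ^ 3 * R ^ 6 * log (2 * R)
        ≤ 100000000 * C ^ 3 * R ^ 6 * (4 * log (log N)) :=
          mul_le_mul_of_nonneg_left hl2R (by positivity)
      _ = _ := by rw [hK']; ring
  have hq : (1 / K') ^ (1 / 6 : ℝ) * (log N / log (log N)) ^ (1 / 6 : ℝ) ≤ R := by
    have hdiv : 1 / K' * (log N / log (log N)) ≤ R ^ 6 := by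
      rw [one_div_mul_eq_div, div_le_iff₀ (by positivity), div_le_iff₀ (by linarith)]
      linarith
    rw [← mul_rpow (by positivity) (by positivity)]
    refine (rpow_le_rpow (by positivity) hdiv (by norm_num)).trans (le_of_eq ?_)
    rw [one_div (6:ℝ), show (6:ℝ) = ((6:ℕ):ℝ) by norm_num,
      pow_rpow_inv_natCast (by linarith : (0:ℝ) ≤ R) (by norm_num)]
  calc (A.card : ℝ) ≤ 4 * (2 * (N:ℝ) + 1) * exp (-(R * log 2)) := by
        rw [exp_neg, mul_comm R, exp_mul, exp_log (by norm_num : (0:ℝ) < 2), hR, rpow_natCast,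
          ← div_eq_mul_inv, le_div_iff₀ (by positivity)]
        linarith
    _ ≤ 12 * N * exp (-(log 2 * (1 / K') ^ (1 / 6 : ℝ)) *
          (log N / log (log N)) ^ (1 / 6 : ℝ)) := by
        refine mul_le_mul (by linarith) (exp_le_exp.2 ?_) (exp_pos _).le (by positivity)
        have := mul_le_mul_of_nonneg_left hq (log_nonneg (show (1:ℝ) ≤ 2 by norm_num))
        linarith

end Vale.Agent.P057.Roth.Outer
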